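import Vale.Agent.Lib.P344L.Lin

/-!
# P344: at least `2n - 2` additions

Take the first position `t` whose value has a coefficient vector which is a nonzero multiple of a row of the
Fourier matrix.  It is not an input (`n ≥ 2`, all entries nonzero) and not a scalar gate, so an addition; a value
depending on `n` inputs needs at least `n - 1` additions up to there (a value computed with `a`
additions depends on at most `a + 1` inputs).  The other `n - 1` rows are pairwise not parallel, and
the first occurrence of a multiple of each of them is a different, later addition.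
-/

namespace Vale.Agent.P344L

private noncomputable def AddsL (n : ℕ) (C : List Gate) : List (Fin n → ℂ) :=
  run (fun j : Fin n => (Pi.single j 1 : Fin n → ℂ)) C

private lemma Adds_snoc (n : ℕ) (C : List Gate) (g : Gate) :
    AddsL n (C ++ [g]) = AddsL n C ++ [g.val (AddsL n C)] := by
  simp [AddsL, run, List.foldl_append]

private lemma Adds_getD {E : Type} [AddCommGroup E] (l : List E) (k : ℕ) :
    l.getD k 0 ∈ l ∨ l.getD k 0 = 0 := by
  by_cases h : k < l.length
  · left
    rw [List.getD_eq_getElem _ _ h]
    exact List.getElem_mem h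
  · right
    exact List.getD_eq_default _ _ (not_lt.1 h)

private lemma Adds_mul (C : List Gate) (c : ℂ) (i : ℕ) : adds (C ++ [Gate.mul c i]) = adds C := by
  simp [adds, List.filter_append]

private lemma Adds_add (C : List Gate) (i j : ℕ) : adds (C ++ [Gate.add i j]) = adds C + 1 := by
  simp [adds, List.filter_append]

private lemma Adds_sub (C : List Gate) (i j : ℕ) : adds (C ++ [Gate.sub i j]) = adds C + 1 := by
  simp [adds, List.filter_append]

/-- all values have monochromatic support -/
private def AddsInv (n : ℕ) (C : List Gate) : Prop :=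
  ∃ c : Fin n → ℕ, n ≤ (Finset.univ.image c).card + adds C ∧
    ∀ v ∈ AddsL n C, ∃ z, ∀ i, v i ≠ 0 → c i = z

private lemma Adds_merge {n : ℕ} {C : List Gate} {g : Gate} (hg : adds (C ++ [g]) = adds C + 1)
    (p q : ℕ) (hv : ∀ i, g.val (AddsL n C) i ≠ 0 → (AddsL n C).getD p 0 i ≠ 0 ∨
      (AddsL n C).getD q 0 i ≠ 0) (h : AddsInv n C) : AddsInv n (C ++ [g]) := by
  classical
  obtain ⟨c, hc, hs⟩ := h
  have hz : ∀ k, ∃ z, ∀ i, (AddsL n C).getD k 0 i ≠ 0 → c i = z := by
    intro k
    rcases Adds_getD (AddsL n C) k with h1 | h1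
    · exact hs _ h1
    · refine ⟨0, fun i hi => ?_⟩
      rw [h1] at hi
      exact absurd rfl hi
  obtain ⟨z1, hz1⟩ := hz p
  obtain ⟨z2, hz2⟩ := hz q
  refine ⟨fun i => if c i = z2 then z1 else c i, ?_, ?_⟩
  · have h1 : Finset.univ.image c ⊆
        insert z2 (Finset.univ.image fun i => if c i = z2 then z1 else c i) := by
      intro y hy
      obtain ⟨i, -, rfl⟩ := Finset.mem_image.1 hy
      by_cases h2 : c i = z2
      · rw [h2]
        exact Finset.mem_insert_self _ _
      · refine Finset.mem_insert_of_mem (Finset.mem_image.2 ⟨i, Finset.mem_univ _, ?_⟩)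
        simp [h2]
    have h2 := (Finset.card_le_card h1).trans (Finset.card_insert_le _ _)
    rw [hg]
    omega
  · intro v hv'
    rw [Adds_snoc, List.mem_append, List.mem_singleton] at hv'
    rcases hv' with h1 | h1
    · obtain ⟨z, hz'⟩ := hs v h1
      refine ⟨if z = z2 then z1 else z, fun i hi => ?_⟩
      have h3 := hz' i hi
      simp only [h3]
    · subst h1
      refine ⟨z1, fun i hi => ?_⟩
      rcases hv i hi with h3 | h3
      · have h4 := hz1 i h3
        simp only [h4]
        split_ifs <;> rfl
      · have h4 := hz2 i h3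
        simp [h4]

private lemma Adds_inv {n : ℕ} (C : List Gate) : AddsInv n C := by
  classical
  induction C using List.reverseRecOn with
  | nil =>
    refine ⟨fun i => (i : ℕ), ?_, ?_⟩
    · rw [Finset.card_image_of_injective _ Fin.val_injective]
      simp
    · intro v hv
      have hv' : v ∈ List.ofFn (fun j : Fin n => (Pi.single j 1 : Fin n → ℂ)) := hv
      rw [List.mem_ofFn] at hv'
      obtain ⟨j, rfl⟩ := hv'
      refine ⟨(j : ℕ), fun i hi => ?_⟩
      by_contra hne
      apply hi
      exact Pi.single_eq_of_ne (fun h => hne (by rw [h])) _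
  | append_singleton C g ih =>
    cases g with
    | add p q =>
      refine Adds_merge (Adds_add C p q) p q (fun i hi => ?_) ih
      by_contra hcon
      push Not at hcon
      apply hi
      change ((AddsL n C).getD p 0 + (AddsL n C).getD q 0) i = 0
      rw [Pi.add_apply, hcon.1, hcon.2, add_zero]
    | sub p q =>
      refine Adds_merge (Adds_sub C p q) p q (fun i hi => ?_) ih
      by_contra hcon
      push Not at hcon
      apply hi
      change ((AddsL n C).getD p 0 - (AddsL n C).getD q 0) i = 0
      rw [Pi.sub_apply, hcon.1, hcon.2, sub_zero]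
    | mul a p =>
      obtain ⟨c, hc, hs⟩ := ih
      refine ⟨c, by rw [Adds_mul]; exact hc, fun v hv => ?_⟩
      rw [Adds_snoc, List.mem_append, List.mem_singleton] at hv
      rcases hv with h1 | h1
      · exact hs v h1
      · subst h1
        rcases Adds_getD (AddsL n C) p with h2 | h2
        · obtain ⟨z, hz⟩ := hs _ h2
          refine ⟨z, fun i hi => hz i fun h3 => hi ?_⟩
          change (a • (AddsL n C).getD p 0) i = 0
          rw [Pi.smul_apply, h3, smul_zero]
        · refine ⟨0, fun i hi => absurd ?_ hi⟩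
          change (a • (AddsL n C).getD p 0) i = 0
          rw [h2, smul_zero]
          rfl

/-- a value with full support needs `n - 1` additions -/
private lemma Adds_full {n : ℕ} {C : List Gate} {v : Fin n → ℂ} (hv : v ∈ AddsL n C)
    (hf : ∀ i, v i ≠ 0) : n ≤ adds C + 1 := by
  obtain ⟨c, hc, hs⟩ := Adds_inv (n := n) C
  obtain ⟨z, hz⟩ := hs v hv
  have h1 : (Finset.univ.image c).card ≤ 1 := by
    refine Finset.card_le_one.2 fun a ha b hb => ?_
    obtain ⟨i, -, rfl⟩ := Finset.mem_image.1 ha
    obtain ⟨j, -, rfl⟩ := Finset.mem_image.1 hb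
    rw [hz i (hf i), hz j (hf j)]
  omega

private def AddsHit {n : ℕ} (r : Fin n → Fin n → ℂ) (C : List Gate) (j : Fin n) : Prop :=
  ∃ a : ℂ, a ≠ 0 ∧ a • r j ∈ AddsL n C

open Classical in
private lemma Adds_main {n : ℕ} (hn : 2 ≤ n) (r : Fin n → Fin n → ℂ) (hr : ∀ j k, r j k ≠ 0)
    (hp : ∀ j j' : Fin n, ∀ a b : ℂ, a ≠ 0 → b ≠ 0 → a • r j = b • r j' → j = j')
    (C : List Gate) (hh : ∃ j, AddsHit r C j) :
    n + (Finset.univ.filter (AddsHit r C)).card ≤ adds C + 2 := by
  have hfull : ∀ (C : List Gate) (j : Fin n), AddsHit r C j → n ≤ adds C + 1 := by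
    rintro C j ⟨a, ha, hm⟩
    refine Adds_full hm fun i => ?_
    rw [Pi.smul_apply, smul_eq_mul]
    exact mul_ne_zero ha (hr j i)
  induction C using List.reverseRecOn with
  | nil =>
    exfalso
    obtain ⟨j, hj⟩ := hh
    have h1 := hfull [] j hj
    have h2 : adds [] = 0 := rfl
    omega
  | append_singleton C g ih =>
    have hstep : adds (C ++ [g]) = adds C + 1 →
        n + (Finset.univ.filter (AddsHit r (C ++ [g]))).card ≤ adds (C ++ [g]) + 2 := by
      intro hg
      obtain ⟨j, hj⟩ := hh
      have h1 : ∀ j', AddsHit r (C ++ [g]) j' → ¬ AddsHit r C j' →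
          ∃ a : ℂ, a ≠ 0 ∧ a • r j' = g.val (AddsL n C) := by
        rintro j' ⟨a, ha, hm⟩ hnot
        rw [Adds_snoc, List.mem_append, List.mem_singleton] at hm
        rcases hm with h2 | h2
        · exact absurd ⟨a, ha, h2⟩ hnot
        · exact ⟨a, ha, h2⟩
      have h3 : (Finset.univ.filter (AddsHit r (C ++ [g]))).card ≤
          (Finset.univ.filter (AddsHit r C)).card + 1 := by
        by_cases h4 : ∃ j0, AddsHit r (C ++ [g]) j0 ∧ ¬ AddsHit r C j0
        · obtain ⟨j0, h5, h6⟩ := h4
          obtain ⟨a, ha, hae⟩ := h1 j0 h5 h6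
          refine (Finset.card_le_card ?_).trans (Finset.card_insert_le j0 _)
          intro j' hj'
          by_cases h7 : AddsHit r C j'
          · exact Finset.mem_insert_of_mem (Finset.mem_filter.2 ⟨Finset.mem_univ _, h7⟩)
          · obtain ⟨b, hb, hbe⟩ := h1 j' (Finset.mem_filter.1 hj').2 h7
            rw [hp j' j0 b a hb ha (hbe.trans hae.symm)]
            exact Finset.mem_insert_self _ _
        · push Not at h4
          refine (Finset.card_le_card fun j' hj' => ?_).trans (Nat.le_succ _)
          exact Finset.mem_filter.2 ⟨Finset.mem_univ _, h4 j' (Finset.mem_filter.1 hj').2⟩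
      by_cases h4 : ∃ j, AddsHit r C j
      · have h5 := ih h4
        omega
      · have h5 : Finset.univ.filter (AddsHit r C) = ∅ := by
          refine Finset.filter_eq_empty_iff.2 fun j' _ h6 => h4 ⟨j', h6⟩
        rw [h5, Finset.card_empty] at h3
        have h6 := hfull _ j hj
        omega
    cases g with
    | add p q => exact hstep (Adds_add C p q)
    | sub p q => exact hstep (Adds_sub C p q)
    | mul c p =>
      have h1 : ∀ j, AddsHit r (C ++ [Gate.mul c p]) j → AddsHit r C j := by
        rintro j ⟨a, ha, hm⟩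
        rw [Adds_snoc, List.mem_append, List.mem_singleton] at hm
        rcases hm with h2 | h2
        · exact ⟨a, ha, h2⟩
        · have h3 : a • r j = c • (AddsL n C).getD p 0 := h2
          have hne : a • r j ≠ 0 := by
            intro h4
            have h5 := congrFun h4 ⟨0, by omega⟩
            rw [Pi.smul_apply, smul_eq_mul, Pi.zero_apply] at h5
            exact mul_ne_zero ha (hr j _) h5
          have hc : c ≠ 0 := by
            rintro rfl
            exact hne (by rw [h3, zero_smul])
          rcases Adds_getD (AddsL n C) p with h4 | h4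
          · refine ⟨c⁻¹ * a, mul_ne_zero (inv_ne_zero hc) ha, ?_⟩
            rw [mul_smul, h3, smul_smul, inv_mul_cancel₀ hc, one_smul]
            exact h4
          · exact absurd (by rw [h3, h4, smul_zero]) hne
      obtain ⟨j, hj⟩ := hh
      have h2 := ih ⟨j, h1 j hj⟩
      rw [Adds_mul]
      refine le_trans ?_ h2
      gcongr
      exact h1 _

theorem adds_ge {n : ℕ} (hn : 2 ≤ n) {C : List Gate} (h : Computes n C) :
    2 * n ≤ adds C + 2 := by
  classical
  obtain ⟨out, hout⟩ := h
  obtain ⟨ω, hω⟩ : ∃ ω : ℂ, ω = Complex.exp (2 * Real.pi * Complex.I / n) := ⟨_, rfl⟩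
  have hprim : IsPrimitiveRoot ω n := by
    rw [hω]
    exact Complex.isPrimitiveRoot_exp n (by omega)
  have hω0 : ω ≠ 0 := by
    rw [hω]
    exact Complex.exp_ne_zero _
  have hr : ∀ j k : Fin n, (fun j k : Fin n => ω ^ ((j : ℕ) * (k : ℕ))) j k ≠ 0 :=
    fun j k => pow_ne_zero _ hω0
  have hp : ∀ j j' : Fin n, ∀ a b : ℂ, a ≠ 0 → b ≠ 0 →
      a • (fun j k : Fin n => ω ^ ((j : ℕ) * (k : ℕ))) j =
      b • (fun j k : Fin n => ω ^ ((j : ℕ) * (k : ℕ))) j' → j = j' := by
    intro j j' a b ha hb he
    have h0 := congrFun he ⟨0, by omega⟩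
    have h1 := congrFun he ⟨1, by omega⟩
    simp only [Pi.smul_apply, smul_eq_mul, mul_zero, pow_zero, mul_one] at h0 h1
    rw [h0] at h1
    have h2 := mul_left_cancel₀ hb h1
    exact Fin.ext (hprim.pow_inj j.2 j'.2 h2)
  have hall : ∀ j, AddsHit (fun j k : Fin n => ω ^ ((j : ℕ) * (k : ℕ))) C j := by
    intro j
    refine ⟨1, one_ne_zero, ?_⟩
    have h1 : coef n C (out j) = (fun j k : Fin n => ω ^ ((j : ℕ) * (k : ℕ))) j := by
      funext k
      rw [coef_out hout j k, hω]
    rw [one_smul, ← h1]
    rcases Adds_getD (AddsL n C) (out j) with h2 | h2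
    · exact h2
    · exfalso
      have h3 : coef n C (out j) = 0 := h2
      rw [h3] at h1
      exact hr j ⟨0, by omega⟩ (congrFun h1.symm ⟨0, by omega⟩)
  have h4 := Adds_main hn _ hr hp C ⟨⟨0, by omega⟩, hall _⟩
  have h5 : (Finset.univ.filter
      (AddsHit (fun j k : Fin n => ω ^ ((j : ℕ) * (k : ℕ))) C)).card = n := by
    rw [Finset.filter_true_of_mem fun j _ => hall j]
    simp
  omega

end Vale.Agent.P344L
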