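import Mathlib

/-!
# P344: linear circuits and the discrete Fourier transform
-/

namespace Vale.Agent.P344L

/-- a gate `u + v`, `u - v` or `c u`; `u`, `v` are given by their positions in the list of values -/
inductive Gate where
  | add (i j : ℕ) : Gate
  | sub (i j : ℕ) : Gate
  | mul (c : ℂ) (i : ℕ) : Gate

/-- the value computed by a gate from the list `l` of the values computed so far (a position
outside the list stands for the constant `0`) -/
def Gate.val {E : Type} [AddCommGroup E] [Module ℂ E] (l : List E) : Gate → E
  | .add i j => l.getD i 0 + l.getD j 0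
  | .sub i j => l.getD i 0 - l.getD j 0
  | .mul c i => c • l.getD i 0

/-- the list of all computed values: the inputs `x 0, …, x (n-1)`, then the values of the gates -/
def run {n : ℕ} {E : Type} [AddCommGroup E] [Module ℂ E] (x : Fin n → E) (C : List Gate) :
    List E :=
  C.foldl (fun l g => l ++ [g.val l]) (List.ofFn x)

/-- the unnormalized discrete Fourier transform `F_n x` -/
noncomputable def dft (n : ℕ) (x : Fin n → ℂ) (j : Fin n) : ℂ :=
  ∑ k : Fin n, Complex.exp (2 * Real.pi * Complex.I / n) ^ ((j : ℕ) * (k : ℕ)) * x k

/-- the linear circuit `C` computes `F_n`: its outputs are designated computed values -/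
def Computes (n : ℕ) (C : List Gate) : Prop :=
  ∃ out : Fin n → ℕ, ∀ (x : Fin n → ℂ) (j : Fin n), (run x C).getD (out j) 0 = dft n x j

/-- number of gates `u + v` and `u - v` -/
def adds (C : List Gate) : ℕ :=
  (C.filter fun g => match g with
    | .mul _ _ => false
    | _ => true).length

open Classical in
/-- number of gates `c u` with `|c| > 1` -/
noncomputable def bigs (C : List Gate) : ℕ :=
  (C.filter fun g => match g with
    | .mul c _ => decide (1 < ‖c‖)
    | _ => false).length

/-- coefficient vectors of the computed values -/
noncomputable def coef (n : ℕ) (C : List Gate) (k : ℕ) : Fin n → ℂ :=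
  (run (fun j : Fin n => (Pi.single j 1 : Fin n → ℂ)) C).getD k 0

end Vale.Agent.P344L
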