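import Mathlib

/-!
# P344: rank one updates of a determinant
-/

namespace Vale.Agent.P344L

open Matrix
open scoped ComplexOrder

private theorem Det_upd {d : ℕ} (G : Matrix (Fin d) (Fin d) ℂ) (hG : IsUnit G.det)
    (g : Fin d → ℂ) :
    (G + vecMulVec (star g) g).det = G.det * (1 + g ⬝ᵥ (G⁻¹ *ᵥ star g)) := by
  rw [vecMulVec_eq Unit, det_add_replicateCol_mul_replicateRow hG]
  congr 1
  rw [det_unique, Matrix.add_apply, one_apply_eq, dotProduct_mulVec, ← replicateRow_vecMul,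
    replicateRow_mul_replicateCol_apply]

private noncomputable def DetQ {d : ℕ} (G : Matrix (Fin d) (Fin d) ℂ) (x : Fin d → ℂ) : ℂ :=
  x ⬝ᵥ (G⁻¹ *ᵥ star x)

private theorem DetQ_nonneg {d : ℕ} {G : Matrix (Fin d) (Fin d) ℂ} (hG : G.PosDef)
    (x : Fin d → ℂ) : 0 ≤ DetQ G x := by
  have h := hG.inv.posSemidef.dotProduct_mulVec_nonneg (star x)
  rwa [star_star] at h

private theorem DetQ_le {d : ℕ} {G : Matrix (Fin d) (Fin d) ℂ} (hG : G.PosDef)
    {u : Fin d → ℂ} (hu : (G - vecMulVec (star u) u).PosSemidef) : (DetQ G u).re ≤ 1 := by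
  have hdet : IsUnit G.det := by
    rw [← Matrix.isUnit_iff_isUnit_det]
    exact hG.isUnit
  have h1 := hu.dotProduct_mulVec_nonneg (G⁻¹ *ᵥ star u)
  have h2 : (G - vecMulVec (star u) u) *ᵥ (G⁻¹ *ᵥ star u) = (1 - DetQ G u) • star u := by
    rw [sub_mulVec, mulVec_mulVec, Matrix.mul_nonsing_inv _ hdet, one_mulVec, vecMulVec_mulVec,
      sub_smul, one_smul]
    congr 1
    funext i
    simp only [Pi.smul_apply, MulOpposite.smul_eq_mul_unop, MulOpposite.unop_op, smul_eq_mul]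
    unfold DetQ
    ring
  have h3 : star (G⁻¹ *ᵥ star u) ⬝ᵥ star u = star (DetQ G u) := by
    unfold DetQ
    rw [← star_dotProduct_star, dotProduct_comm]
  rw [h2, dotProduct_smul, h3, smul_eq_mul] at h1
  have h4 := DetQ_nonneg hG u
  generalize DetQ G u = q at h1 h4
  rw [Complex.le_def] at h1 h4
  simp only [Complex.zero_re, Complex.zero_im, Complex.mul_re, Complex.sub_re, Complex.one_re,
    Complex.sub_im, Complex.one_im, Complex.star_def, Complex.conj_re, Complex.conj_im] at h1 h4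
  have h5 := h1.1
  rw [← h4.2] at h5
  by_contra hcon
  push Not at hcon
  nlinarith [h4.1]

private theorem DetQ_par {d : ℕ} (G : Matrix (Fin d) (Fin d) ℂ) (x y : Fin d → ℂ) :
    DetQ G (x + y) + DetQ G (x - y) = 2 * DetQ G x + 2 * DetQ G y := by
  unfold DetQ
  simp only [star_add, star_sub, mulVec_add, mulVec_sub, add_dotProduct, sub_dotProduct,
    dotProduct_add, dotProduct_sub]
  ring

private theorem DetQ_smul {d : ℕ} (G : Matrix (Fin d) (Fin d) ℂ) (c : ℂ) (x : Fin d → ℂ) :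
    DetQ G (c • x) = ((‖c‖ ^ 2 : ℝ) : ℂ) * DetQ G x := by
  unfold DetQ
  rw [star_smul, mulVec_smul, dotProduct_smul, smul_dotProduct, smul_eq_mul, smul_eq_mul,
    ← mul_assoc]
  congr 1
  rw [Complex.star_def, Complex.conj_mul']
  push_cast
  rfl

/-- `G + g* g` for a row vector `g`; `det (G + g* g) = det G (1 + g G⁻¹ g*)`, `g G⁻¹ g* ≤ 4` if
`g = a u + b v` with `|a|, |b| ≤ 1` and `u* u ≤ G`, `v* v ≤ G` (as forms) -/
theorem det_step {d : ℕ} (G : Matrix (Fin d) (Fin d) ℂ) (hG : G.PosDef) (u v : Fin d → ℂ)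
    (hu : (G - vecMulVec (star u) u).PosSemidef) (hv : (G - vecMulVec (star v) v).PosSemidef)
    (a b : ℂ) (ha : ‖a‖ ≤ 1) (hb : ‖b‖ ≤ 1) :
    (G + vecMulVec (star (a • u + b • v)) (a • u + b • v)).det.re ≤ 5 * G.det.re := by
  have hdet : IsUnit G.det := by
    rw [← Matrix.isUnit_iff_isUnit_det]
    exact hG.isUnit
  rw [Det_upd G hdet]
  change (G.det * (1 + DetQ G (a • u + b • v))).re ≤ _
  have h1 := congrArg Complex.re (DetQ_par G (a • u) (b • v))
  rw [DetQ_smul, DetQ_smul] at h1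
  simp only [Complex.add_re, Complex.mul_re, Complex.ofReal_re, Complex.ofReal_im, zero_mul,
    sub_zero, Complex.re_ofNat, Complex.im_ofNat] at h1
  have h2 := (Complex.le_def.1 (DetQ_nonneg hG (a • u - b • v))).1
  have h3 := DetQ_le hG hu
  have h4 := DetQ_le hG hv
  have h5 := (Complex.le_def.1 (DetQ_nonneg hG u)).1
  have h6 := (Complex.le_def.1 (DetQ_nonneg hG v)).1
  rw [Complex.zero_re] at h2 h5 h6
  have h7 : ‖a‖ ^ 2 ≤ 1 := pow_le_one₀ (norm_nonneg _) ha
  have h8 : ‖b‖ ^ 2 ≤ 1 := pow_le_one₀ (norm_nonneg _) hb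
  have h9 : ‖a‖ ^ 2 * (DetQ G u).re ≤ 1 := mul_le_one₀ h7 h5 h3
  have h10 : ‖b‖ ^ 2 * (DetQ G v).re ≤ 1 := mul_le_one₀ h8 h6 h4
  have h11 : (DetQ G (a • u + b • v)).re ≤ 4 := by linarith
  have h12 := Complex.lt_def.1 hG.det_pos
  rw [Complex.zero_re, Complex.zero_im] at h12
  rw [Complex.mul_re, ← h12.2, zero_mul, sub_zero, Complex.add_re, Complex.one_re]
  nlinarith [h12.1]

/-- `G = n + (positive semidefinite)` has determinant at least `n ^ d` -/
theorem det_ge {d : ℕ} (G : Matrix (Fin d) (Fin d) ℂ) {r : ℝ} (hr : 0 ≤ r)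
    (hG : (G - (r : ℂ) • (1 : Matrix (Fin d) (Fin d) ℂ)).PosSemidef) : r ^ d ≤ G.det.re := by
  have h0 : ((r : ℂ) • (1 : Matrix (Fin d) (Fin d) ℂ)).IsHermitian := by
    unfold Matrix.IsHermitian
    rw [conjTranspose_smul, conjTranspose_one]
    simp
  have hH : G.IsHermitian := by
    have h1 := hG.isHermitian.add h0
    rwa [sub_add_cancel] at h1
  have hev : ∀ i, r ≤ hH.eigenvalues i := by
    intro i
    have h1 := hG.dotProduct_mulVec_nonneg (hH.eigenvectorBasis i : Fin d → ℂ)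
    have hv0 : (hH.eigenvectorBasis i : Fin d → ℂ) ≠ 0 := by
      intro h
      have h2 := hH.eigenvectorBasis.orthonormal.1 i
      have h3 : hH.eigenvectorBasis i = 0 := by
        ext j
        exact congrFun h j
      rw [h3, norm_zero] at h2
      exact zero_ne_one h2
    have h2 := (Matrix.PosDef.one (n := Fin d) (R := ℂ)).dotProduct_mulVec_pos hv0
    rw [one_mulVec] at h2
    rw [sub_mulVec, hH.mulVec_eigenvectorBasis, smul_mulVec, one_mulVec, dotProduct_sub,
      dotProduct_smul, dotProduct_smul] at h1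
    generalize star (hH.eigenvectorBasis i : Fin d → ℂ) ⬝ᵥ
      (hH.eigenvectorBasis i : Fin d → ℂ) = z at h1 h2
    have h3 := (Complex.le_def.1 h1).1
    have h4 := Complex.lt_def.1 h2
    simp only [Complex.zero_re, Complex.zero_im, Complex.sub_re, Complex.real_smul,
      Complex.mul_re, Complex.ofReal_re, Complex.ofReal_im, zero_mul, sub_zero, smul_eq_mul]
      at h3 h4
    by_contra hcon
    push Not at hcon
    nlinarith [h4.1]
  rw [hH.det_eq_prod_eigenvalues]
  have h5 : (∏ i, ((hH.eigenvalues i : ℝ) : ℂ)) = ((∏ i, hH.eigenvalues i : ℝ) : ℂ) := by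
    push_cast
    rfl
  change r ^ d ≤ (∏ i, ((hH.eigenvalues i : ℝ) : ℂ)).re
  rw [h5, Complex.ofReal_re]
  calc r ^ d = ∏ _i : Fin d, r := by simp
    _ ≤ ∏ i, hH.eigenvalues i := Finset.prod_le_prod (fun _ _ => hr) fun i _ => hev i

end Vale.Agent.P344L
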