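import Vale.Agent.Lib.P344L.Pot

/-!
# P344: a matrix with orthonormal columns killing the big scalar gates
-/

namespace Vale.Agent.P344L

open Classical in
private theorem Ker_bigs_append (C : List Gate) (g : Gate) :
    bigs (C ++ [g]) = bigs C + bigs [g] := by
  unfold bigs
  rw [List.filter_append, List.length_append]

private theorem Ker_bigs_mul {c : ℂ} {i : ℕ} (hc : 1 < ‖c‖) : bigs [Gate.mul c i] = 1 := by
  unfold bigs
  simp [hc]

/-- linear functional of a coefficient vector -/
private noncomputable def Ker_phi {n : ℕ} (a : Fin n → ℂ) : EuclideanSpace ℂ (Fin n) →ₗ[ℂ] ℂ where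
  toFun x := ∑ j, a j * x j
  map_add' x y := by
    rw [← Finset.sum_add_distrib]
    refine Finset.sum_congr rfl fun j _ => ?_
    rw [PiLp.add_apply]
    ring
  map_smul' c x := by
    rw [RingHom.id_apply, smul_eq_mul, Finset.mul_sum]
    refine Finset.sum_congr rfl fun j _ => ?_
    rw [PiLp.smul_apply, smul_eq_mul]
    ring

private theorem Ker_inf {n : ℕ} (K : Submodule ℂ (EuclideanSpace ℂ (Fin n)))
    (φ : EuclideanSpace ℂ (Fin n) →ₗ[ℂ] ℂ) :
    Module.finrank ℂ K ≤ Module.finrank ℂ ↥(K ⊓ LinearMap.ker φ) + 1 := by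
  have h1 := Submodule.finrank_sup_add_finrank_inf_eq K (LinearMap.ker φ)
  have h2 := LinearMap.finrank_range_add_finrank_ker φ
  have h3 : Module.finrank ℂ (LinearMap.range φ) ≤ 1 := by
    have := Submodule.finrank_le (LinearMap.range φ)
    rwa [Module.finrank_self] at this
  have h4 := Submodule.finrank_le (K ⊔ LinearMap.ker φ)
  omega

private theorem Ker_exists {n : ℕ} (C : List Gate) :
    ∃ K : Submodule ℂ (EuclideanSpace ℂ (Fin n)), n ≤ Module.finrank ℂ K + bigs C ∧
      ∀ x ∈ K, ∀ (C₁ : List Gate) (c : ℂ) (i : ℕ) (C₂ : List Gate), C = C₁ ++ Gate.mul c i :: C₂ →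
        1 < ‖c‖ → ∑ j, coef n C₁ i j * x j = 0 := by
  induction C using List.reverseRecOn with
  | nil =>
    refine ⟨⊤, ?_, ?_⟩
    · rw [finrank_top, finrank_euclideanSpace_fin]
      omega
    · intro x _ C₁ c i C₂ h
      simp at h
  | append_singleton C g ih =>
    obtain ⟨K, h1, h2⟩ := ih
    have hdec : ∀ (C₁ : List Gate) (c : ℂ) (i : ℕ) (C₂ : List Gate),
        C ++ [g] = C₁ ++ Gate.mul c i :: C₂ → (C₁ = C ∧ g = Gate.mul c i) ∨
          ∃ C₂', C = C₁ ++ Gate.mul c i :: C₂' := by
      intro C₁ c i C₂ h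
      rcases List.eq_nil_or_concat C₂ with h3 | ⟨L, b, h3⟩
      · subst h3
        left
        have h4 := List.append_inj' h rfl
        exact ⟨h4.1.symm, by simpa using h4.2⟩
      · right
        rw [h3] at h
        have h5 : C ++ [g] = (C₁ ++ Gate.mul c i :: L) ++ [b] := by
          rw [h]
          simp
        exact ⟨L, (List.append_inj' h5 rfl).1⟩
    by_cases hg : ∃ c i, g = Gate.mul c i ∧ 1 < ‖c‖
    · obtain ⟨c, i, hgc, hc⟩ := hg
      refine ⟨K ⊓ LinearMap.ker (Ker_phi (coef n C i)), ?_, ?_⟩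
      · rw [Ker_bigs_append, hgc, Ker_bigs_mul hc]
        have := Ker_inf K (Ker_phi (coef n C i))
        omega
      · intro x hx C₁ c' i' C₂ h hc'
        rcases hdec C₁ c' i' C₂ h with ⟨h3, h4⟩ | ⟨C₂', h3⟩
        · rw [hgc] at h4
          injection h4 with h5 h6
          rw [h3, ← h6]
          exact LinearMap.mem_ker.1 hx.2
        · exact h2 x hx.1 C₁ c' i' C₂' h3 hc'
    · refine ⟨K, ?_, ?_⟩
      · rw [Ker_bigs_append]
        omega
      · intro x hx C₁ c' i' C₂ h hc'
        rcases hdec C₁ c' i' C₂ h with ⟨h3, h4⟩ | ⟨C₂', h3⟩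
        · exact absurd ⟨c', i', h4, hc'⟩ hg
        · exact h2 x hx C₁ c' i' C₂' h3 hc'

/-- the common kernel of the `bigs C` functionals (coefficient vectors of the arguments of the big scalar gates) has
dimension at least `n - bigs C`; take an orthonormal basis (Euclidean space) as columns -/
theorem exists_q {n : ℕ} (C : List Gate) : ∃ (d : ℕ) (q : Fin n → Fin d → ℂ), n ≤ d + bigs C ∧
    gramL (List.ofFn q) = 1 ∧ Kills q C := by
  obtain ⟨K, h1, h2⟩ := Ker_exists (n := n) C
  let b := stdOrthonormalBasis ℂ K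
  refine ⟨Module.finrank ℂ K, fun j e => ((b e : K) : EuclideanSpace ℂ (Fin n)) j, h1, ?_, ?_⟩
  · ext e e'
    unfold gramL
    rw [List.map_ofFn, List.sum_ofFn, Matrix.sum_apply]
    have h3 : inner ℂ ((b e : K) : EuclideanSpace ℂ (Fin n)) ((b e' : K) : EuclideanSpace ℂ (Fin n)) =
        if e = e' then (1 : ℂ) else 0 := by
      rw [← Submodule.coe_inner]
      exact orthonormal_iff_ite.1 b.orthonormal e e'
    rw [PiLp.inner_apply] at h3
    rw [Matrix.one_apply, ← h3]
    refine Finset.sum_congr rfl fun j _ => ?_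
    simp [Matrix.vecMulVec_apply, RCLike.inner_apply, mul_comm]
  · intro C₁ c i C₂ h hc
    rw [run_coef]
    funext e
    rw [Finset.sum_apply]
    simp only [Pi.smul_apply, smul_eq_mul, Pi.zero_apply]
    exact h2 _ (b e).2 C₁ c i C₂ h hc

end Vale.Agent.P344L
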