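import Vale.Agent.Lib.P344L.Pot

/-!
# P344: a matrix with orthonormal columns killing the big scalar gates
-/

namespace Vale.Agent.P344L

private theorem Ker_bigs_append (C : List Gate) (g : Gate) :
    bigs (C ++ [g]) = bigs C + bigs [g] := by
  unfold bigs
  rw [List.filter_append, List.length_append]

private theorem Ker_list {n : ℕ} (C : List Gate) : ∃ L : List (Fin n → ℂ), L.length ≤ bigs C ∧
    ∀ (C₁ : List Gate) (c : ℂ) (i : ℕ) (C₂ : List Gate), C = C₁ ++ Gate.mul c i :: C₂ →
      1 < ‖c‖ → coef n C₁ i ∈ L := by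
  induction C using List.reverseRecOn with
  | nil =>
    refine ⟨[], by simp, fun C₁ c i C₂ h => ?_⟩
    exact absurd h.symm (by simp)
  | append_singleton C g ih =>
    obtain ⟨L, hL, h⟩ := ih
    have hcases : ∀ (C₁ : List Gate) (c : ℂ) (i : ℕ) (C₂ : List Gate),
        C ++ [g] = C₁ ++ Gate.mul c i :: C₂ →
        (C₁ = C ∧ g = Gate.mul c i) ∨ ∃ C₂', C = C₁ ++ Gate.mul c i :: C₂' := by
      intro C₁ c i C₂ h1
      rcases List.eq_nil_or_concat C₂ with h2 | ⟨C₂', g', h2⟩
      · subst h2
        have h3 := List.append_inj' h1 rfl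
        left
        exact ⟨h3.1.symm, by simpa using h3.2⟩
      · right
        rw [h2] at h1
        have h3 : C ++ [g] = (C₁ ++ Gate.mul c i :: C₂') ++ [g'] := by simpa using h1
        have h4 := List.append_inj' h3 rfl
        exact ⟨C₂', h4.1⟩
    by_cases hg : ∃ (c : ℂ) (i : ℕ), g = Gate.mul c i ∧ 1 < ‖c‖
    · obtain ⟨c, i, rfl, hc⟩ := hg
      refine ⟨L ++ [coef n C i], ?_, fun C₁ c' i' C₂ h1 hc' => ?_⟩
      · rw [Ker_bigs_append, List.length_append]
        have h2 : bigs [Gate.mul c i] = 1 := by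
          unfold bigs
          simp [hc]
        rw [h2]
        simp
        exact hL
      · rcases hcases C₁ c' i' C₂ h1 with ⟨h2, h3⟩ | ⟨C₂', h2⟩
        · obtain ⟨rfl, rfl⟩ := Gate.mul.inj h3
          rw [h2]
          simp
        · exact List.mem_append_left _ (h C₁ c' i' C₂' h2 hc')
    · refine ⟨L, ?_, fun C₁ c' i' C₂ h1 hc' => ?_⟩
      · rw [Ker_bigs_append]
        omega
      · rcases hcases C₁ c' i' C₂ h1 with ⟨h2, h3⟩ | ⟨C₂', h2⟩
        · exact absurd ⟨c', i', h3, hc'⟩ hg
        · exact h C₁ c' i' C₂' h2 hc'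

/-- the common kernel of the `bigs C` functionals (coefficient vectors of the arguments of the big scalar gates) has
dimension at least `n - bigs C`; take an orthonormal basis (Euclidean space) as columns -/
theorem exists_q {n : ℕ} (C : List Gate) : ∃ (d : ℕ) (q : Fin n → Fin d → ℂ), n ≤ d + bigs C ∧
    gramL (List.ofFn q) = 1 ∧ Kills q C := by
  obtain ⟨L, hL, h⟩ := Ker_list (n := n) C
  let φ : EuclideanSpace ℂ (Fin n) →ₗ[ℂ] (Fin L.length → ℂ) :=
    { toFun := fun x l => ∑ j, L.get l j * x j
      map_add' := fun x y => by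
        funext l
        simp only [PiLp.add_apply, Pi.add_apply]
        rw [← Finset.sum_add_distrib]
        exact Finset.sum_congr rfl fun j _ => by ring
      map_smul' := fun c x => by
        funext l
        simp only [PiLp.smul_apply, Pi.smul_apply, smul_eq_mul, RingHom.id_apply]
        rw [Finset.mul_sum]
        exact Finset.sum_congr rfl fun j _ => by ring }
  let K := LinearMap.ker φ
  have hdim : n ≤ Module.finrank ℂ K + L.length := by
    have h1 := LinearMap.finrank_range_add_finrank_ker φ
    rw [finrank_euclideanSpace_fin] at h1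
    have h2 : Module.finrank ℂ (LinearMap.range φ) ≤ L.length := by
      have h3 := (LinearMap.range φ).finrank_le
      rwa [Module.finrank_fin_fun] at h3
    have h4 : Module.finrank ℂ (LinearMap.ker φ) = Module.finrank ℂ K := rfl
    omega
  let e := stdOrthonormalBasis ℂ K
  refine ⟨Module.finrank ℂ K, fun j c => (e c : EuclideanSpace ℂ (Fin n)) j, by omega, ?_, ?_⟩
  · unfold gramL
    rw [List.map_ofFn, List.sum_ofFn]
    ext a b
    rw [Matrix.sum_apply]
    have h1 : inner ℂ (e a) (e b) = if a = b then (1 : ℂ) else 0 :=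
      orthonormal_iff_ite.1 e.orthonormal a b
    rw [Submodule.coe_inner, PiLp.inner_apply] at h1
    rw [Matrix.one_apply, ← h1]
    refine Finset.sum_congr rfl fun j _ => ?_
    simp only [Function.comp_apply, Matrix.vecMulVec_apply, Pi.star_apply, RCLike.inner_apply]
    rw [mul_comm]
    rfl
  · intro C₁ c i C₂ hC hc
    rw [run_coef]
    obtain ⟨l, hl⟩ := List.mem_iff_get.1 (h C₁ c i C₂ hC hc)
    funext a
    have h1 : φ (e a) = 0 := (e a).2
    have h2 := congrFun h1 l
    have h3 : ∑ j, L.get l j * (e a : EuclideanSpace ℂ (Fin n)) j = 0 := h2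
    rw [hl] at h3
    rw [Finset.sum_apply]
    simpa using h3

end Vale.Agent.P344L
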