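import Vale.Agent.Lib.P344L.Defs

/-!
# P344: values are linear in the inputs
-/

namespace Vale.Agent.P344L

private theorem Lin_snoc {n : ℕ} {E : Type} [AddCommGroup E] [Module ℂ E] (x : Fin n → E)
    (C : List Gate) (g : Gate) : run x (C ++ [g]) = run x C ++ [g.val (run x C)] := by
  unfold run
  rw [List.foldl_append]
  rfl

theorem run_length {n : ℕ} {E : Type} [AddCommGroup E] [Module ℂ E] (x : Fin n → E)
    (C : List Gate) : (run x C).length = n + C.length := by
  induction C using List.reverseRecOn with
  | nil => simp [run]
  | append_singleton C g ih =>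
    rw [Lin_snoc, List.length_append, ih, List.length_append]
    simp only [List.length_cons, List.length_nil]
    omega

private theorem Lin_getD {E : Type} (l : List E) (v d : E) (k : ℕ) :
    (l ++ [v]).getD k d = if k < l.length then l.getD k d else if k = l.length then v else d := by
  split_ifs with h1 h2
  · exact List.getD_append _ _ _ _ h1
  · rw [List.getD_append_right _ _ _ _ (by omega), h2, Nat.sub_self]
    rfl
  · refine List.getD_eq_default _ _ ?_
    rw [List.length_append, List.length_singleton]
    omega

private theorem Lin_ofFn {n : ℕ} {E : Type} (x : Fin n → E) (d : E) (k : ℕ) :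
    (List.ofFn x).getD k d = if h : k < n then x ⟨k, h⟩ else d := by
  split_ifs with h
  · rw [List.getD_eq_getElem _ _ (by rw [List.length_ofFn]; exact h), List.getElem_ofFn]
  · refine List.getD_eq_default _ _ ?_
    rw [List.length_ofFn]
    omega

/-- induction on `C` from the right -/
theorem run_coef {n : ℕ} {E : Type} [AddCommGroup E] [Module ℂ E] (x : Fin n → E)
    (C : List Gate) (k : ℕ) : (run x C).getD k 0 = ∑ j, coef n C k j • x j := by
  induction C using List.reverseRecOn generalizing k with
  | nil =>
    show (List.ofFn x).getD k 0 =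
      ∑ j, ((List.ofFn fun j : Fin n => (Pi.single j 1 : Fin n → ℂ)).getD k 0) j • x j
    rw [Lin_ofFn, Lin_ofFn]
    split_ifs with h
    · rw [Finset.sum_eq_single (⟨k, h⟩ : Fin n)]
      · rw [Pi.single_eq_same, one_smul]
      · intro j _ hj
        rw [Pi.single_eq_of_ne hj, zero_smul]
      · intro hk
        exact absurd (Finset.mem_univ _) hk
    · simp
  | append_singleton C g ih =>
    have hc : coef n (C ++ [g]) k =
        if k < n + C.length then coef n C k else if k = n + C.length then
          g.val (run (fun j : Fin n => (Pi.single j 1 : Fin n → ℂ)) C) else 0 := by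
      unfold coef
      rw [Lin_snoc, Lin_getD, run_length]
    rw [hc, Lin_snoc, Lin_getD, run_length]
    split_ifs with h1 h2
    · exact ih k
    · cases g with
      | add i j =>
        show (run x C).getD i 0 + (run x C).getD j 0 =
          ∑ l, (coef n C i l + coef n C j l) • x l
        rw [ih, ih, ← Finset.sum_add_distrib]
        exact Finset.sum_congr rfl fun l _ => (add_smul _ _ _).symm
      | sub i j =>
        show (run x C).getD i 0 - (run x C).getD j 0 =
          ∑ l, (coef n C i l - coef n C j l) • x l
        rw [ih, ih, ← Finset.sum_sub_distrib]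
        exact Finset.sum_congr rfl fun l _ => (sub_smul _ _ _).symm
      | mul c i =>
        show c • (run x C).getD i 0 = ∑ l, (c * coef n C i l) • x l
        rw [ih, Finset.smul_sum]
        exact Finset.sum_congr rfl fun l _ => (mul_smul _ _ _).symm
    · simp

/-- the coefficient vectors of the outputs are the rows of the Fourier matrix -/
theorem coef_out {n : ℕ} {C : List Gate} {out : Fin n → ℕ}
    (h : ∀ (x : Fin n → ℂ) (j : Fin n), (run x C).getD (out j) 0 = dft n x j) (j k : Fin n) :
    coef n C (out j) k = Complex.exp (2 * Real.pi * Complex.I / n) ^ ((j : ℕ) * (k : ℕ)) := by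
  have h1 := h (Pi.single k 1) j
  rw [run_coef] at h1
  have h2 : ∑ i, coef n C (out j) i • (Pi.single k (1 : ℂ) : Fin n → ℂ) i = coef n C (out j) k := by
    rw [Finset.sum_eq_single k]
    · rw [Pi.single_eq_same, smul_eq_mul, mul_one]
    · intro i _ hi
      rw [Pi.single_eq_of_ne hi, smul_zero]
    · intro hk
      exact absurd (Finset.mem_univ _) hk
  rw [h2] at h1
  rw [h1]
  unfold dft
  rw [Finset.sum_eq_single k]
  · rw [Pi.single_eq_same, mul_one]
  · intro i _ hi
    rw [Pi.single_eq_of_ne hi, mul_zero]
  · intro hk
    exact absurd (Finset.mem_univ _) hk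

end Vale.Agent.P344L
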