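import Vale.Agent.Lib.P344L.Ker
import Vale.Agent.Lib.P344L.Adds

/-!
# P344: the lower bounds
-/

namespace Vale.Agent.P344L

private theorem Main_filter {α : Type} (p q : α → Bool) (h : ∀ a, p a = true → q a = false)
    (l : List α) : (l.filter p).length + (l.filter q).length ≤ l.length := by
  induction l with
  | nil => simp
  | cons a l ih =>
    rw [List.filter_cons, List.filter_cons, List.length_cons]
    cases hp : p a with
    | true =>
      have hq := h a hp
      simp only [hq, if_true, List.length_cons]
      simp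
      omega
    | false =>
      cases hq : q a with
      | true =>
        simp
        omega
      | false =>
        simp
        omega

theorem bigs_add_adds (C : List Gate) : bigs C + adds C ≤ C.length := by
  classical
  unfold bigs adds
  refine Main_filter _ _ ?_ C
  intro g hg
  cases g with
  | add i j => simp at hg
  | sub i j => simp at hg
  | mul c i => rfl

/-- structure -/
theorem tradeoff {n : ℕ} (hn : 2 ≤ n) {C : List Gate} (h : Computes n C) :
    ((n : ℝ) - bigs C) * Real.log n ≤ ((C.length : ℝ) - bigs C) * Real.log 5 := by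
  obtain ⟨d, q, hd, hq, hk⟩ := exists_q (n := n) C
  have h1 := pot_ge hn q hq C h
  have h2 := pot_le q hq C hk
  have h3 : (n : ℝ) ^ d ≤ 5 ^ (C.length - bigs C) := h1.trans h2
  have hn1 : (1 : ℝ) < n := by exact_mod_cast (by omega : 1 < n)
  have hlog : 0 < Real.log n := Real.log_pos hn1
  have hle : bigs C ≤ C.length := by
    have := bigs_add_adds C
    omega
  have h4 : (d : ℝ) * Real.log n ≤ ((C.length : ℝ) - bigs C) * Real.log 5 := by
    have h5 : Real.log ((n : ℝ) ^ d) ≤ Real.log ((5 : ℝ) ^ (C.length - bigs C)) :=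
      Real.log_le_log (by positivity) h3
    rw [Real.log_pow, Real.log_pow, Nat.cast_sub hle] at h5
    exact h5
  have h6 : (n : ℝ) - bigs C ≤ d := by
    have : (n : ℝ) ≤ d + bigs C := by exact_mod_cast hd
    linarith
  exact (mul_le_mul_of_nonneg_right h6 hlog.le).trans h4

/-- size -/
theorem size_ge {n : ℕ} (hn : 2 ≤ n) {C : List Gate} (h : Computes n C) :
    3 * (n : ℝ) - 2 - 2 * n * (Real.log 5 / Real.log n) ≤ C.length := by
  have hn1 : (1 : ℝ) < n := by exact_mod_cast (by omega : 1 < n)
  have hlog : 0 < Real.log n := Real.log_pos hn1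
  have hlog5 : 0 < Real.log 5 := Real.log_pos (by norm_num)
  set lam : ℝ := Real.log 5 / Real.log n with hlam
  have hlam0 : 0 < lam := div_pos hlog5 hlog
  have h1 := tradeoff hn h
  have h2 : (bigs C : ℝ) + adds C ≤ C.length := by exact_mod_cast bigs_add_adds C
  have h3 : 2 * (n : ℝ) ≤ adds C + 2 := by exact_mod_cast adds_ge hn h
  have h4 : (n : ℝ) - bigs C ≤ ((C.length : ℝ) - bigs C) * lam := by
    rw [hlam, ← mul_div_assoc, le_div_iff₀ hlog]
    exact h1
  have h5 : (0 : ℝ) ≤ bigs C := Nat.cast_nonneg _
  have h6 : 2 * (n : ℝ) - 2 ≤ (C.length : ℝ) - bigs C := by linarith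
  rcases le_or_gt lam 1 with hl | hl
  · have h7 : 0 ≤ (((C.length : ℝ) - bigs C) - (2 * (n : ℝ) - 2)) * (1 - lam) :=
      mul_nonneg (by linarith) (by linarith)
    nlinarith
  · have h8 : (n : ℝ) ≤ n * lam := by nlinarith
    nlinarith

end Vale.Agent.P344L
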