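import Mathlib

/-!
# P344: orthogonality of the columns of the Fourier matrix
-/

namespace Vale.Agent.P344L

/-- orthogonality of the rows of the Fourier matrix -/
theorem fourier_orth (n : ℕ) (hn : 1 ≤ n) (k l : Fin n) :
    ∑ j : Fin n, star (Complex.exp (2 * Real.pi * Complex.I / n) ^ ((j : ℕ) * (k : ℕ))) *
      Complex.exp (2 * Real.pi * Complex.I / n) ^ ((j : ℕ) * (l : ℕ)) =
      if k = l then (n : ℂ) else 0 := by
  have hn0 : n ≠ 0 := by omega
  have hp : IsPrimitiveRoot (Complex.exp (2 * Real.pi * Complex.I / n)) n :=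
    Complex.isPrimitiveRoot_exp n hn0
  set ζ : ℂ := Complex.exp (2 * Real.pi * Complex.I / n) with hζ
  have hnorm : ‖ζ‖ = 1 := hp.norm'_eq_one hn0
  have hz0 : ζ ≠ 0 := hp.ne_zero hn0
  have hstar : star ζ = ζ⁻¹ := by
    rw [Complex.inv_eq_conj hnorm]
    rfl
  set w : ℂ := ζ ^ (l : ℕ) * (ζ ^ (k : ℕ))⁻¹ with hw
  have hterm : ∀ j : Fin n, star (ζ ^ ((j : ℕ) * (k : ℕ))) * ζ ^ ((j : ℕ) * (l : ℕ)) =
      w ^ (j : ℕ) := by
    intro j
    rw [star_pow, hstar, hw, mul_pow, inv_pow, inv_pow, ← pow_mul, ← pow_mul, mul_comm (l : ℕ),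
      mul_comm (k : ℕ), mul_comm]
  rw [Finset.sum_congr rfl fun j _ => hterm j, Fin.sum_univ_eq_sum_range (fun j => w ^ j) n]
  by_cases h : k = l
  · have hw1 : w = 1 := by
      rw [hw, h]
      exact mul_inv_cancel₀ (pow_ne_zero _ hz0)
    rw [if_pos h, hw1]
    simp
  · rw [if_neg h]
    have hw1 : w ≠ 1 := by
      intro h1
      apply h
      have h2 : ζ ^ (l : ℕ) = ζ ^ (k : ℕ) := by
        rw [hw] at h1
        exact (mul_inv_eq_one₀ (pow_ne_zero _ hz0)).1 h1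
      exact (Fin.ext (hp.pow_inj l.isLt k.isLt h2)).symm
    have hwn : w ^ n = 1 := by
      rw [hw, mul_pow, inv_pow, ← pow_mul, ← pow_mul, mul_comm (l : ℕ), mul_comm (k : ℕ), pow_mul,
        pow_mul, hp.pow_eq_one, one_pow, one_pow, inv_one, mul_one]
    have h3 := mul_neg_geom_sum w n
    rw [hwn, sub_self] at h3
    exact (mul_eq_zero.1 h3).resolve_left (sub_ne_zero.2 (Ne.symm hw1))

end Vale.Agent.P344L
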