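import Vale.Agent.Lib.P344L.Lin
import Vale.Agent.Lib.P344L.Det
import Vale.Agent.Lib.P344L.Orth

/-!
# P344: the potential `det ∑ v* v` along a circuit run on the rows `q j` of a matrix with orthonormal columns
-/

namespace Vale.Agent.P344L

open Matrix

/-- `∑ v* v` over the values -/
noncomputable def gramL {d : ℕ} (l : List (Fin d → ℂ)) : Matrix (Fin d) (Fin d) ℂ :=
  (l.map fun v => vecMulVec (star v) v).sum

/-- the values of the scalar gates with `|c| > 1` vanish on `q` -/
def Kills {n d : ℕ} (q : Fin n → Fin d → ℂ) (C : List Gate) : Prop :=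
  ∀ (C₁ : List Gate) (c : ℂ) (i : ℕ) (C₂ : List Gate), C = C₁ ++ Gate.mul c i :: C₂ → 1 < ‖c‖ →
    (run q C₁).getD i 0 = 0

section pot
open scoped ComplexOrder

private theorem Pot_snoc {n : ℕ} {E : Type} [AddCommGroup E] [Module ℂ E] (x : Fin n → E)
    (C : List Gate) (g : Gate) : run x (C ++ [g]) = run x C ++ [g.val (run x C)] := by
  unfold run
  rw [List.foldl_append]
  rfl

private theorem Pot_cons {d : ℕ} (v : Fin d → ℂ) (l : List (Fin d → ℂ)) :
    gramL (v :: l) = vecMulVec (star v) v + gramL l := by
  unfold gramL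
  rw [List.map_cons, List.sum_cons]

private theorem Pot_append {d : ℕ} (l₁ l₂ : List (Fin d → ℂ)) :
    gramL (l₁ ++ l₂) = gramL l₁ + gramL l₂ := by
  unfold gramL
  rw [List.map_append, List.sum_append]

private theorem Pot_single {d : ℕ} (v : Fin d → ℂ) :
    gramL [v] = vecMulVec (star v) v := by
  unfold gramL
  simp

private theorem Pot_vv {d : ℕ} (v : Fin d → ℂ) : (vecMulVec (star v) v).PosSemidef :=
  posSemidef_vecMulVec_star_self v

private theorem Pot_vv0 {d : ℕ} : vecMulVec (star (0 : Fin d → ℂ)) (0 : Fin d → ℂ) = 0 := by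
  ext i j
  simp [vecMulVec_apply]

private theorem Pot_psd {d : ℕ} (l : List (Fin d → ℂ)) : (gramL l).PosSemidef := by
  induction l with
  | nil => exact PosSemidef.zero
  | cons v l ih =>
    rw [Pot_cons]
    exact (Pot_vv v).add ih

private theorem Pot_sub {d : ℕ} (l : List (Fin d → ℂ)) : ∀ i : ℕ,
    (gramL l - vecMulVec (star (l.getD i 0)) (l.getD i 0)).PosSemidef := by
  induction l with
  | nil =>
    intro i
    rw [List.getD_nil, Pot_vv0, sub_zero]
    exact Pot_psd []
  | cons v l ih =>
    intro i
    cases i with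
    | zero =>
      rw [List.getD_cons_zero, Pot_cons, add_sub_cancel_left]
      exact Pot_psd l
    | succ i =>
      rw [List.getD_cons_succ, Pot_cons, add_sub_assoc]
      exact (Pot_vv v).add (ih i)

private theorem Pot_rest {n d : ℕ} (q : Fin n → Fin d → ℂ) (C : List Gate) :
    ∃ r, run q C = List.ofFn q ++ r := by
  induction C using List.reverseRecOn with
  | nil => exact ⟨[], by rw [List.append_nil]; rfl⟩
  | append_singleton C g ih =>
    obtain ⟨r, hr⟩ := ih
    refine ⟨r ++ [g.val (run q C)], ?_⟩
    rw [Pot_snoc, ← List.append_assoc, ← hr]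

private theorem Pot_pd {n d : ℕ} (q : Fin n → Fin d → ℂ)
    (hq : gramL (List.ofFn q) = 1) (C : List Gate) : (gramL (run q C)).PosDef := by
  obtain ⟨r, hr⟩ := Pot_rest q C
  rw [hr, Pot_append, hq]
  exact PosDef.one.add_posSemidef (Pot_psd r)

private theorem Pot_bigs_le (C : List Gate) : bigs C ≤ C.length := List.length_filter_le _ _

private theorem Pot_bigs_append (C C' : List Gate) : bigs (C ++ C') = bigs C + bigs C' := by
  unfold bigs
  rw [List.filter_append, List.length_append]

private theorem Pot_bigs_add (i j : ℕ) : bigs [Gate.add i j] = 0 := by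
  simp [bigs]

private theorem Pot_bigs_sub (i j : ℕ) : bigs [Gate.sub i j] = 0 := by
  simp [bigs]

private theorem Pot_bigs_mul (c : ℂ) (i : ℕ) : bigs [Gate.mul c i] = if 1 < ‖c‖ then 1 else 0 := by
  unfold bigs
  by_cases h : 1 < ‖c‖
  · simp [h]
  · simp [h]

private theorem Pot_step {n d : ℕ} (q : Fin n → Fin d → ℂ)
    (hq : gramL (List.ofFn q) = 1) (C : List Gate) (g : Gate) (i j : ℕ) (a b : ℂ)
    (hg : g.val (run q C) = a • (run q C).getD i 0 + b • (run q C).getD j 0)
    (ha : ‖a‖ ≤ 1) (hb : ‖b‖ ≤ 1) :
    (gramL (run q (C ++ [g]))).det.re ≤ 5 * (gramL (run q C)).det.re := by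
  rw [Pot_snoc, Pot_append, Pot_single, hg]
  exact det_step _ (Pot_pd q hq C) _ _ (Pot_sub _ i) (Pot_sub _ j) a b ha hb

private theorem Pot_fin {n d : ℕ} (q : Fin n → Fin d → ℂ)
    (hq : gramL (List.ofFn q) = 1) (C : List Gate) (g : Gate) (i j : ℕ) (a b : ℂ)
    (hg : g.val (run q C) = a • (run q C).getD i 0 + b • (run q C).getD j 0)
    (ha : ‖a‖ ≤ 1) (hb : ‖b‖ ≤ 1) (h0 : bigs [g] = 0)
    (ih : (gramL (run q C)).det.re ≤ 5 ^ (C.length - bigs C)) :
    (gramL (run q (C ++ [g]))).det.re ≤ 5 ^ ((C ++ [g]).length - bigs (C ++ [g])) := by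
  have h1 := Pot_step q hq C g i j a b hg ha hb
  have h2 : (C ++ [g]).length - bigs (C ++ [g]) = (C.length - bigs C) + 1 := by
    rw [Pot_bigs_append, h0, List.length_append, List.length_singleton]
    have := Pot_bigs_le C
    omega
  rw [h2, pow_succ]
  linarith

end pot

/-- upper bound: induction on `C` from the right, `det_step` for every gate which is not killed -/
theorem pot_le {n d : ℕ} (q : Fin n → Fin d → ℂ)
    (hq : gramL (List.ofFn q) = 1) (C : List Gate) (hC : Kills q C) :
    (gramL (run q C)).det.re ≤ 5 ^ (C.length - bigs C) := by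
  induction C using List.reverseRecOn with
  | nil =>
    have h1 : run q [] = List.ofFn q := rfl
    rw [h1, hq, det_one]
    simp
  | append_singleton C g ih =>
    have hC' : Kills q C := fun C₁ c i C₂ h hc => hC C₁ c i (C₂ ++ [g]) (by
      rw [h, List.append_assoc, List.cons_append]) hc
    have ih' := ih hC'
    cases g with
    | add i j =>
      refine Pot_fin q hq C _ i j 1 1 ?_ (by simp) (by simp) (Pot_bigs_add i j) ih'
      rw [one_smul, one_smul]
      rfl
    | sub i j =>
      refine Pot_fin q hq C _ i j 1 (-1) ?_ (by simp) (by simp) (Pot_bigs_sub i j) ih'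
      rw [one_smul, neg_one_smul, ← sub_eq_add_neg]
      rfl
    | mul c i =>
      by_cases hc : 1 < ‖c‖
      · have h1 := hC C c i [] rfl hc
        have h2 : Gate.val (run q C) (Gate.mul c i) = 0 := by
          change c • (run q C).getD i 0 = 0
          rw [h1, smul_zero]
        have h3 : (C ++ [Gate.mul c i]).length - bigs (C ++ [Gate.mul c i]) =
            C.length - bigs C := by
          rw [Pot_bigs_append, Pot_bigs_mul, if_pos hc, List.length_append,
            List.length_singleton]
          omega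
        rw [Pot_snoc, Pot_append, Pot_single, h2, Pot_vv0, add_zero, h3]
        exact ih'
      · refine Pot_fin q hq C _ i i c 0 ?_ (not_lt.1 hc) (by simp)
          (by rw [Pot_bigs_mul, if_neg hc]) ih'
        rw [zero_smul, add_zero]
        rfl

private theorem Pot_range {d : ℕ} (l : List (Fin d → ℂ)) : ∀ N : ℕ, l.length ≤ N →
    gramL l = ∑ i ∈ Finset.range N, vecMulVec (star (l.getD i 0)) (l.getD i 0) := by
  induction l with
  | nil =>
    intro N _
    symm
    refine Finset.sum_eq_zero fun i _ => ?_
    rw [List.getD_nil, Pot_vv0]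
  | cons v l ih =>
    intro N hN
    cases N with
    | zero => simp at hN
    | succ N =>
      rw [Finset.sum_range_succ', Pot_cons, ih N (by simpa using hN), add_comm]
      simp only [List.getD_cons_succ, List.getD_cons_zero]

section pot2
open scoped ComplexOrder

/-- lower bound: the outputs alone give `∑ = n • 1` (`run_coef`, `coef_out`, `fourier_orth`; the
positions `out j` are distinct and inside the list for `n ≥ 2`) -/
theorem pot_ge {n d : ℕ} (hn : 2 ≤ n) (q : Fin n → Fin d → ℂ)
    (hq : gramL (List.ofFn q) = 1) (C : List Gate) (h : Computes n C) :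
    (n : ℝ) ^ d ≤ (gramL (run q C)).det.re := by
  obtain ⟨out, hout⟩ := h
  have hinj : Function.Injective out := by
    intro a b hab
    by_contra hne
    have h1 := fourier_orth n (by omega) a b
    have h2 := fourier_orth n (by omega) a a
    rw [if_neg hne] at h1
    rw [if_pos rfl] at h2
    have h3 : ∀ j : Fin n, Complex.exp (2 * Real.pi * Complex.I / n) ^ ((j : ℕ) * (a : ℕ)) =
        Complex.exp (2 * Real.pi * Complex.I / n) ^ ((j : ℕ) * (b : ℕ)) := by
      intro j
      rw [mul_comm (j : ℕ) (a : ℕ), mul_comm (j : ℕ) (b : ℕ), ← coef_out hout a j,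
        ← coef_out hout b j, hab]
    simp only [← h3] at h1
    rw [h1] at h2
    have h4 : (n : ℂ) ≠ 0 := by exact_mod_cast (by omega : n ≠ 0)
    exact h4 h2.symm
  have hw : ∀ j : Fin n, (run q C).getD (out j) 0 =
      ∑ k : Fin n, Complex.exp (2 * Real.pi * Complex.I / n) ^ ((j : ℕ) * (k : ℕ)) • q k := by
    intro j
    rw [run_coef]
    exact Finset.sum_congr rfl fun k _ => by rw [coef_out hout j k]
  -- the outputs
  have hsum : ∑ j : Fin n, vecMulVec (star ((run q C).getD (out j) 0))
      ((run q C).getD (out j) 0) = ((n : ℝ) : ℂ) • (1 : Matrix (Fin d) (Fin d) ℂ) := by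
    rw [← hq]
    have h1 : gramL (List.ofFn q) = ∑ k : Fin n, vecMulVec (star (q k)) (q k) := by
      unfold gramL
      rw [List.map_ofFn, List.sum_ofFn]
      rfl
    rw [h1]
    ext s t
    simp only [Matrix.sum_apply, Matrix.smul_apply, vecMulVec_apply, hw, Pi.star_apply,
      Finset.sum_apply, Pi.smul_apply, smul_eq_mul, star_sum, star_mul', Finset.sum_mul,
      Finset.mul_sum]
    rw [Finset.sum_comm]
    refine Finset.sum_congr rfl fun k _ => ?_
    rw [Finset.sum_comm]
    have h2 : ∀ l : Fin n, ∑ j : Fin n,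
        star (Complex.exp (2 * Real.pi * Complex.I / n) ^ ((j : ℕ) * (l : ℕ))) *
          star (q l s) *
          (Complex.exp (2 * Real.pi * Complex.I / n) ^ ((j : ℕ) * (k : ℕ)) * q k t) =
        (if l = k then (n : ℂ) else 0) * (star (q l s) * q k t) := by
      intro l
      rw [← fourier_orth n (by omega) l k, Finset.sum_mul]
      exact Finset.sum_congr rfl fun j _ => by ring
    simp only [h2]
    rw [Finset.sum_eq_single k (fun l _ hl => by rw [if_neg hl, zero_mul])
      (fun hk => absurd (Finset.mem_univ k) hk), if_pos rfl]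
    simp
  have hpsd : (gramL (run q C) - ((n : ℝ) : ℂ) • (1 : Matrix (Fin d) (Fin d) ℂ)).PosSemidef := by
    obtain ⟨N, hN1, hN2⟩ : ∃ N : ℕ, (run q C).length ≤ N ∧
        Finset.univ.image out ⊆ Finset.range N := by
      obtain ⟨M, hM⟩ := (Finset.univ.image out).exists_nat_subset_range
      exact ⟨max (run q C).length M, le_max_left _ _, hM.trans
        (Finset.range_subset_range.2 (le_max_right _ _))⟩
    rw [← hsum, Pot_range _ N hN1,
      ← Finset.sum_image (s := Finset.univ) (g := out)
        (f := fun i => vecMulVec (star ((run q C).getD i 0)) ((run q C).getD i 0))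
        (fun a _ b _ hab => hinj hab),
      ← Finset.sum_sdiff hN2, add_sub_cancel_right]
    exact posSemidef_sum _ fun i _ => Pot_vv _
  exact det_ge _ (Nat.cast_nonneg n) hpsd

end pot2

end Vale.Agent.P344L
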